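import Vale.Agent.Lib.P346.Final
import Vale.Agent.Lib.P346.HomFacts

/-!
Lower bound over every finite field for syntactically homogeneous five-layer circuits computing
`IMM_{n,n}`.
-/

open Vale.Agent.Lib.P346 in
/-- For every finite field `K` there are `c > 0` and `N₀` such that for `n ≥ N₀` every syntactically
homogeneous five-layer circuit over `K` computing `IMM_{n,n}` as a formal polynomial has at least
`exp (c * √n)` vertices. -/
theorem Vale.Agent.Results.P346.A_all_finite_fields.result (K : Type) [Field K] [Fintype K] :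
    ∃ c : ℝ, 0 < c ∧ ∃ N₀ : ℕ, ∀ n : ℕ, N₀ ≤ n → ∀ (hn : 0 < n)
      (D : SPSPSCircuit K (ImmVar n n)), D.IsSynHomogeneous → D.output = imm K n n hn →
        Real.exp (c * Real.sqrt n) ≤ (D.size : ℝ) := by
  classical
  have hq : 2 ≤ Fintype.card K := Fintype.one_lt_card
  set q := Fintype.card K with hqdef
  set P := 100 * q * (33 * 2 ^ (36 * q + 1)) with hPdef
  have hP : 0 < P := by positivity
  have hPR : (0 : ℝ) < P := by exact_mod_cast hP
  have hqR : (0 : ℝ) < q := by
    have : 0 < q := by omega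
    exact_mod_cast this
  refine ⟨1 / (16 * q * Real.sqrt P), by positivity, P * ((200 * (q * q)) * (200 * (q * q))), ?_⟩
  intro n hN hn D hom hD
  set l := Nat.sqrt (n / P) with hldef
  have hl : 200 * (q * q) ≤ l := by
    rw [hldef, Nat.le_sqrt]
    rw [Nat.le_div_iff_mul_le hP]
    rw [mul_comm]
    exact hN
  have hl1 : 1 ≤ l := by
    have : 0 < 200 * (q * q) := by positivity
    omega
  have hn1 : P * (l * l) ≤ n := by
    have h1 : l * l ≤ n / P := Nat.sqrt_le _
    calc P * (l * l) ≤ P * (n / P) := Nat.mul_le_mul_left _ h1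
      _ ≤ n := Nat.mul_div_le _ _
  have hn2 : n ≤ 4 * P * (l * l) := by
    have h1 : n / P < (l + 1) * (l + 1) := Nat.lt_succ_sqrt _
    have h2 : n < (l + 1) * (l + 1) * P := (Nat.div_lt_iff_lt_mul hP).1 h1
    have h3 : (l + 1) * (l + 1) ≤ 4 * (l * l) := by nlinarith
    calc n ≤ (l + 1) * (l + 1) * P := h2.le
      _ ≤ 4 * (l * l) * P := Nat.mul_le_mul_right _ h3
      _ = 4 * P * (l * l) := by ring
  obtain ⟨dgs⟩ := exists_degs hn D hom hD
  have hcore := core_bound hn D hD dgs hl hn1 hn2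
  refine le_trans (Real.exp_le_exp.2 ?_) hcore
  have hnR : (n : ℝ) ≤ 4 * P * ((l : ℝ) * l) := by exact_mod_cast hn2
  have hlR : (0 : ℝ) ≤ l := Nat.cast_nonneg _
  have hsP : 0 < Real.sqrt P := Real.sqrt_pos.2 hPR
  have hsn : Real.sqrt n ≤ 2 * Real.sqrt P * l := by
    rw [Real.sqrt_le_left (by positivity)]
    rw [mul_pow, mul_pow, Real.sq_sqrt hPR.le]
    nlinarith
  rw [div_mul_eq_mul_div, one_mul, div_le_div_iff₀ (by positivity) (by positivity)]
  nlinarith [mul_le_mul_of_nonneg_left hsn (by positivity : (0 : ℝ) ≤ 8 * q)]
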