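import Vale.Agent.Lib.P346.Proof

/-!
Lower bound over the two-element field for five-layer sum-product-sum-product-sum circuits
computing `IMM_{n,n}`, without any homogeneity assumption.
-/

open Vale.Agent.Lib.P346 in
/-- For `n ≥ 10^9`, every five-layer circuit over `ZMod 2` computing `IMM_{n,n}` as a formal
polynomial has at least `exp (n^(1/3) / 10)` vertices. -/
theorem Vale.Agent.Results.P346.A_main.result (n : ℕ) (hn : 0 < n) (hn' : 1000000000 ≤ n)
    (D : SPSPSCircuit (ZMod 2) (ImmVar n n)) (hD : D.output = imm (ZMod 2) n n hn) :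
    Real.exp ((n : ℝ) ^ ((1 : ℝ) / 3) / 10) ≤ (D.size : ℝ) := by
  obtain ⟨m, rfl⟩ : ∃ m, n = m + 1 := ⟨n - 1, by omega⟩
  exact final_bound hn' D hD
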